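import Vale.Agent.P121.Measures

open MeasureTheory
open scoped ENNReal

namespace Vale.Agent.Results.P121.NoMongePlan

open Vale.Agent.P121

/-- An absolutely continuous, compactly supported probability measure on `ℝ³` with finite
three-marginal Coulomb transport value and no optimal Monge plan. -/
theorem result :
    ∃ μ : Measure (EuclideanSpace ℝ (Fin 3)), IsProbabilityMeasure μ ∧ μ ≪ volume ∧
      (∃ K, IsCompact K ∧ μ Kᶜ = 0) ∧
      ∃ π₀, IsCoupling μ π₀ ∧ ∫⁻ t, coulombCost t.1 t.2.1 t.2.2 ∂π₀ < ∞ ∧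
        (∀ π, IsCoupling μ π →
          ∫⁻ t, coulombCost t.1 t.2.1 t.2.2 ∂π₀ ≤ ∫⁻ t, coulombCost t.1 t.2.1 t.2.2 ∂π) ∧
        ∀ T₂ T₃ : EuclideanSpace ℝ (Fin 3) → EuclideanSpace ℝ (Fin 3),
          Measurable T₂ → Measurable T₃ → μ.map T₂ = μ → μ.map T₃ = μ →
          ∫⁻ t, coulombCost t.1 t.2.1 t.2.2 ∂π₀ < ∫⁻ x, coulombCost x (T₂ x) (T₃ x) ∂μ :=
  exists_counterexample

end Vale.Agent.Results.P121.NoMongePlan
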